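import Mathlib

/-!
# Packed families in a tree: the tail of the nesting number

`S : Finset α` (affected cells) in a partial order where the cells above a given one form a chain;
weights `w ≥ 0` with the packing `∑_(q' ≤ q) w q' ≤ B w q` at every `q ∈ S`.
`nb S q` = number of the cells of `S` above `q` (itself included).

* `nb_anti` : the cells of a given nesting number form an antichain;
* `tail_step`, `tail_pow` : the cells with nesting number `> i` have total weight at most
  `(1 - 1 / B) ^ i` times the total weight of `S`;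
* `layers` : a sum over `S` is the sum over the layers.
-/

namespace Vale.Agent.P141.H380

open Finset

noncomputable section

open scoped Classical

variable {α : Type*} [PartialOrder α]

/-- nesting number: the number of the cells of `S` above `q` -/
def nb (S : Finset α) (q : α) : ℕ := (S.filter fun p => q ≤ p).card

/-- the cells of `S` above a given one form a chain -/
def Chn (S : Finset α) : Prop := ∀ q ∈ S, ∀ a ∈ S, ∀ b ∈ S, q ≤ a → q ≤ b → a ≤ b ∨ b ≤ a

theorem nb_lt {S : Finset α} {q p : α} (hq : q ∈ S) (h : q < p) :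
    nb S p < nb S q := by
  unfold nb
  refine card_lt_card ?_
  rw [Finset.ssubset_iff_of_subset]
  · refine ⟨q, mem_filter.2 ⟨hq, le_rfl⟩, fun h2 => ?_⟩
    exact absurd (mem_filter.1 h2).2 (not_le_of_gt h)
  · intro a ha
    rw [mem_filter] at ha ⊢
    exact ⟨ha.1, h.le.trans ha.2⟩

theorem nb_pos {S : Finset α} {q : α} (hq : q ∈ S) : 1 ≤ nb S q :=
  card_pos.2 ⟨q, mem_filter.2 ⟨hq, le_rfl⟩⟩

/-- Cells with the same nesting number are not nested. -/
theorem nb_anti {S : Finset α} {q p : α} (hq : q ∈ S) (h : q ≤ p)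
    (e : nb S q = nb S p) : q = p := by
  rcases h.lt_or_eq with h | h
  · exact absurd e (nb_lt hq h).ne'
  · exact h

/-- Above a cell of nesting number `≥ i` (`i ≥ 1`) there is a cell of nesting number `i`. -/
theorem exists_nb {S : Finset α} (hS : Chn S) {q : α} (hq : q ∈ S) {i : ℕ} (hi : 1 ≤ i)
    (h : i ≤ nb S q) : ∃ p ∈ S, q ≤ p ∧ nb S p = i := by
  -- downward induction on the nesting number
  obtain ⟨m, hm⟩ := Nat.exists_eq_add_of_le h
  induction m generalizing q with
  | zero => exact ⟨q, hq, le_rfl, by omega⟩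
  | succ m ih =>
    -- the least cell strictly above `q`
    have hne : ((S.filter fun p => q < p)).Nonempty := by
      by_contra hc
      rw [not_nonempty_iff_eq_empty] at hc
      have : nb S q ≤ 1 := by
        unfold nb
        have h2 : (S.filter fun p => q ≤ p) ⊆ {q} := by
          intro a ha
          rw [mem_filter] at ha
          rw [mem_singleton]
          by_contra hne
          have : a ∈ S.filter fun p => q < p :=
            mem_filter.2 ⟨ha.1, lt_of_le_of_ne ha.2 (Ne.symm hne)⟩
          rw [hc] at this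
          exact absurd this (Finset.notMem_empty _)
        exact (card_le_card h2).trans (by simp)
      omega
    obtain ⟨p, hp⟩ := (S.filter fun p => q < p).exists_minimal hne
    have hp1 := mem_filter.1 hp.1
    have e : nb S p + 1 = nb S q := by
      unfold nb
      have h2 : (S.filter fun a => q ≤ a) = insert q (S.filter fun a => p ≤ a) := by
        ext a
        rw [mem_filter, mem_insert, mem_filter]
        constructor
        · rintro ⟨ha, hqa⟩
          rcases eq_or_lt_of_le hqa with h3 | h3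
          · exact Or.inl h3.symm
          · right
            refine ⟨ha, ?_⟩
            rcases hS q hq p hp1.1 a ha hp1.2.le hqa with h4 | h4
            · exact h4
            · exact hp.2 (mem_filter.2 ⟨ha, h3⟩) h4
        · rintro (h3 | ⟨ha, hpa⟩)
          · rw [h3]
            exact ⟨hq, le_rfl⟩
          · exact ⟨ha, hp1.2.le.trans hpa⟩
      rw [h2, card_insert_of_notMem]
      intro h3
      exact absurd (mem_filter.1 h3).2 (not_le_of_gt hp1.2)
    obtain ⟨r, hr, hr1, hr2⟩ := ih hp1.1 (by omega) (by omega)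
    exact ⟨r, hr, hp1.2.le.trans hr1, hr2⟩

/-- total weight of the cells of nesting number `≥ i` -/
def tl (S : Finset α) (w : α → ℝ) (i : ℕ) : ℝ := ∑ q ∈ S.filter (fun q => i ≤ nb S q), w q

/-- total weight of the layer `i` -/
def ly (S : Finset α) (w : α → ℝ) (i : ℕ) : ℝ := ∑ q ∈ S.filter (fun q => nb S q = i), w q

theorem tl_eq (S : Finset α) (w : α → ℝ) (i : ℕ) : tl S w i = ly S w i + tl S w (i + 1) := by
  unfold tl ly
  rw [← sum_union]
  · refine sum_congr ?_ fun _ _ => rfl
    ext q
    simp only [mem_filter, mem_union]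
    constructor
    · rintro ⟨h1, h2⟩
      rcases h2.eq_or_lt with h3 | h3
      · exact Or.inl ⟨h1, h3.symm⟩
      · exact Or.inr ⟨h1, h3⟩
    · rintro (⟨h1, h2⟩ | ⟨h1, h2⟩)
      · exact ⟨h1, h2.ge⟩
      · exact ⟨h1, by omega⟩
  · rw [disjoint_filter]
    intro q _ h1 h2
    omega

theorem tl_one (S : Finset α) (w : α → ℝ) : tl S w 1 = ∑ q ∈ S, w q := by
  unfold tl
  refine sum_congr (filter_true_of_mem fun q hq => nb_pos hq) fun _ _ => rfl

/-- The weight above level `i` is carried by the cells of the layer `i`. -/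
theorem tl_le {S : Finset α} (hS : Chn S) {w : α → ℝ} (hw : ∀ q ∈ S, 0 ≤ w q) {B : ℝ}
    (hB : ∀ q ∈ S, ∑ p ∈ S.filter (fun p => p ≤ q), w p ≤ B * w q) {i : ℕ} (hi : 1 ≤ i) :
    tl S w i ≤ B * ly S w i := by
  have h1 : tl S w i ≤ ∑ q ∈ S.filter (fun q => nb S q = i),
      ∑ p ∈ S.filter (fun p => p ≤ q), w p := by
    have h2 : ∑ q ∈ S.filter (fun q => nb S q = i), ∑ p ∈ S.filter (fun p => p ≤ q), w p =
        ∑ p ∈ S, ∑ q ∈ S.filter (fun q => nb S q = i ∧ p ≤ q), w p := by
      refine sum_comm' fun q p => ?_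
      simp only [mem_filter]
      tauto
    rw [h2]
    unfold tl
    refine (sum_le_sum fun p hp => ?_).trans (sum_le_sum_of_subset_of_nonneg (filter_subset _ S)
      fun p hp _ => sum_nonneg fun q _ => hw p hp)
    rw [mem_filter] at hp
    obtain ⟨q, hq, h3, h4⟩ := exists_nb hS hp.1 hi hp.2
    exact single_le_sum (f := fun _ : α => w p) (fun _ _ => hw p hp.1)
      (mem_filter.2 ⟨hq, h4, h3⟩)
  refine h1.trans ?_
  unfold ly
  rw [mul_sum]
  exact sum_le_sum fun q hq => hB q (mem_filter.1 hq).1

/-- **One step of the tail.** -/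
theorem tail_step {S : Finset α} (hS : Chn S) {w : α → ℝ} (hw : ∀ q ∈ S, 0 ≤ w q) {B : ℝ}
    (hB0 : 0 < B) (hB : ∀ q ∈ S, ∑ p ∈ S.filter (fun p => p ≤ q), w p ≤ B * w q) {i : ℕ}
    (hi : 1 ≤ i) : tl S w (i + 1) ≤ (1 - B⁻¹) * tl S w i := by
  have h1 := tl_le hS hw hB hi
  have h2 := tl_eq S w i
  have h3 : B⁻¹ * tl S w i ≤ ly S w i := by
    rw [inv_mul_le_iff₀ hB0]
    exact h1
  linarith

/-- **The tail of the nesting number.** -/
theorem tail_pow {S : Finset α} (hS : Chn S) {w : α → ℝ} (hw : ∀ q ∈ S, 0 ≤ w q) {B : ℝ}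
    (hB1 : 1 ≤ B) (hB : ∀ q ∈ S, ∑ p ∈ S.filter (fun p => p ≤ q), w p ≤ B * w q) (i : ℕ) :
    ∑ q ∈ S.filter (fun q => i < nb S q), w q ≤ (1 - B⁻¹) ^ i * ∑ q ∈ S, w q := by
  have hB0 : 0 < B := by linarith
  have h0 : 0 ≤ 1 - B⁻¹ := by
    have := inv_le_one_of_one_le₀ hB1
    linarith
  have h : ∀ i, tl S w (i + 1) ≤ (1 - B⁻¹) ^ i * ∑ q ∈ S, w q := by
    intro i
    induction i with
    | zero => rw [pow_zero, one_mul, zero_add, tl_one]
    | succ i ih =>
      refine (tail_step hS hw hB0 hB (by omega)).trans ?_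
      rw [pow_succ']
      calc (1 - B⁻¹) * tl S w (i + 1) ≤ (1 - B⁻¹) * ((1 - B⁻¹) ^ i * ∑ q ∈ S, w q) :=
            mul_le_mul_of_nonneg_left ih h0
        _ = _ := by ring
  exact h i

/-- **Layers**: the first `i` layers and the tail. -/
theorem layers (S : Finset α) (f : α → ℝ) (i : ℕ) :
    ∑ q ∈ S, f q = ∑ j ∈ Icc 1 i, ∑ q ∈ S.filter (fun q => nb S q = j), f q +
      ∑ q ∈ S.filter (fun q => i < nb S q), f q := by
  induction i with
  | zero =>
    rw [show Icc 1 0 = (∅ : Finset ℕ) from rfl, sum_empty, zero_add]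
    exact (sum_congr (filter_true_of_mem fun q hq => nb_pos hq) fun _ _ => rfl).symm
  | succ i ih =>
    have e0 : Icc 1 (i + 1) = insert (i + 1) (Icc 1 i) := by
      ext j
      rw [mem_insert, mem_Icc, mem_Icc]
      omega
    rw [ih, e0, sum_insert (by simp)]
    have h := tl_eq S f (i + 1)
    unfold tl ly at h
    have e1 : S.filter (fun q => i < nb S q) = S.filter (fun q => i + 1 ≤ nb S q) := rfl
    have e2 : S.filter (fun q => i + 1 < nb S q) = S.filter (fun q => i + 1 + 1 ≤ nb S q) := rfl
    rw [e1, e2, h]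
    ring

end

end Vale.Agent.P141.H380
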